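import Vale.Agent.P269.G1I.All
import Vale.Agent.P269.G2I.BSpec1
import Vale.Agent.P269.G2I.H302.M23
import Vale.Agent.P269.G2I.H36.WEuler
import Vale.Agent.P269.G2I.Model1
import Vale.Agent.P269.G2I.Model2
import Vale.Agent.P269.G2I.T.H521_SrB
import Vale.Agent.P269.G2I.T.H598_M1

/-!
# [M4], [M6] the Euler field and the derivative of the genus-one potential
-/

set_option autoImplicit false

namespace Vale.Agent.P269.G2.H598.C46

open Vale.Agent.P269.CI Vale.Agent.P269.G1 Vale.Agent.P269.G2
open Vale.Agent.P269.G2.H984.SBE (toSer_entries sr_congr sr_add sr_zero sr_smul sr_sum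
  sr_const move_even par_false lowerSum_cons smul_RB)
open Vale.Agent.P269.G2.H36 (wtc nodesc lowerSum_zero)
open Vale.Agent.P269.G2.H302.M23 (pd_cor cor_swap pd_qc T_apply pd_mul pd_sum)

section

variable {X : CompleteIntersection} {F : ℕ → ℕ → List (Ins X) → ℂ}

theorem wtc_append (L M : List (Ins X)) : wtc X (L ++ M) = wtc X L + wtc X M := by
  simp [wtc]

/-- the grading equation without descendants -/
theorem wtc_grading (hF : IsGW X F) (g d : ℕ) (M : List (Ins X)) (hM : ∀ x ∈ M, x.2 = 0) :
    wtc X M * F g d M = -((1 - (g : ℂ)) * ((X.dim : ℂ) - 3) + (index X : ℂ) * d) * F g d M := by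
  by_cases h0 : F g d M = 0
  · rw [h0, mul_zero, mul_zero]
  · congr 1
    have h1 := hF.grading_p g d M h0
    have h2 : ∀ M : List (Ins X), (∀ x ∈ M, x.2 = 0) →
        wtc X M = -(((M.map fun x => (x.2 : ℤ) + hp X x.1 - 1).sum : ℤ) : ℂ) := by
      intro M
      induction M with
      | nil => intro _; simp [wtc]
      | cons y M ih =>
        intro hM
        have h3 := ih fun x hx => hM x (List.mem_cons_of_mem _ hx)
        have h4 : y.2 = 0 := hM y List.mem_cons_self
        unfold wtc at h3 ⊢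
        rw [List.map_cons, List.sum_cons, h3, List.map_cons, List.sum_cons, h4]
        push_cast
        ring
    rw [h2 M hM, h1]
    push_cast
    ring

/-- the classical term of the divisor equation -/
noncomputable def cls (X : CompleteIntersection) (g d : ℕ) (M : List (Ins X)) : ℂ :=
  (if g = 0 ∧ d = 0 then pairTerm X (fun a b => ∑ c, hmul X a c * pairing X c b) M else 0) +
    (if g = 1 ∧ d = 0 then emptyTerm X (- (deg X * chernCoeff X (X.dim - 1)) / 24) M else 0)

theorem divisor_nodesc (hF : IsGW X F) (g d : ℕ) (M : List (Ins X)) (hM : ∀ x ∈ M, x.2 = 0) :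
    F g d ((hcls X, 0) :: M) = d * F g d M + cls X g d M := by
  rw [hF.divisor g d M, lowerSum_zero _ M hM, cls]
  ring

/-- an insertion of the family moves to the front -/
theorem move_front {n : ℕ} (E : Fam X n) (hF : IsGW X F) (he : Even X.dim) (g d : ℕ)
    (P : List (Ins X)) (L : List (Fin n)) (j : Fin L.length) :
    F g d (P ++ L.map E.e) = F g d (E.e (L.get j) :: (P ++ (L.eraseIdx j).map E.e)) := by
  have h := move_even hF g d (E.e (L.get j)) (par_false he _)
    (P ++ (L.take j).map E.e) [] ((L.drop (j + 1)).map E.e)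
  simp only [List.nil_append, List.append_assoc] at h
  have h1 : L.map E.e = (L.take j).map E.e ++ E.e (L.get j) :: (L.drop (j + 1)).map E.e := by
    rw [← List.map_cons, ← List.map_append]
    congr 1
    have h2 : L = L.take j ++ L.drop j := (List.take_append_drop _ _).symm
    have h3 : L.drop j = L.get j :: L.drop (j + 1) := by
      rw [List.drop_eq_getElem_cons j.2]
      rfl
    rw [← h3]
    exact h2
  have h4 : (L.eraseIdx j).map E.e = (L.take j).map E.e ++ (L.drop (j + 1)).map E.e := by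
    rw [List.eraseIdx_eq_take_drop_succ, List.map_append]
  rw [h1, h4]
  exact h

/-- the sum over the variables -/
theorem sum_wtc {n : ℕ} (E : Fam X n) (hF : IsGW X F) (he : Even X.dim) (g : ℕ)
    (P : List (Ins X)) :
    ∑ i, (MvPowerSeries.X i : RB n) *
      (((1 : ℂ) - (hp X (E.e i).1 : ℂ)) • sr E (cor F g (E.e i :: P))) =
      sr E (fun d M => wtc X M * F g d (P ++ M)) := by
  have h0 : ∀ i, ((1 : ℂ) - (hp X (E.e i).1 : ℂ)) • sr E (cor F g (E.e i :: P)) =
      toSer (fun L : List (Fin n) => (PowerSeries.mk fun d =>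
        ((1 : ℂ) - (hp X (E.e i).1 : ℂ)) * cor F g (E.e i :: P) d (L.map E.e) :
          PowerSeries ℂ)) := by
    intro i
    rw [← sr_smul]
    rfl
  have hsym : ∀ i, Sym (fun L : List (Fin n) => (PowerSeries.mk fun d =>
      ((1 : ℂ) - (hp X (E.e i).1 : ℂ)) * cor F g (E.e i :: P) d (L.map E.e) :
        PowerSeries ℂ)) := by
    intro i L M h
    ext d
    rw [PowerSeries.coeff_mk, PowerSeries.coeff_mk, symF_cor E hF he g _ d L M h]
  simp only [h0]
  refine Eq.trans (toSer_entries (n := n) (K := PowerSeries ℂ)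
    (fun i L => PowerSeries.mk fun d =>
      ((1 : ℂ) - (hp X (E.e i).1 : ℂ)) * cor F g (E.e i :: P) d (L.map E.e)) hsym).symm ?_
  rw [sr]
  congr 1
  funext L
  ext d
  rw [PowerSeries.coeff_mk, map_sum]
  simp only [PowerSeries.coeff_mk]
  have h3 : wtc X (L.map E.e) = ∑ j : Fin L.length,
      ((1 : ℂ) - (hp X (E.e (L.get j)).1 : ℂ)) := by
    unfold wtc
    rw [List.map_map]
    exact (Fin.sum_univ_fun_getElem L _).symm
  rw [h3, Finset.sum_mul]
  refine Finset.sum_congr rfl fun j _ => ?_
  rw [move_front E hF he g d P L j]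
  rfl

end

variable {X : CompleteIntersection} {F : ℕ → ℕ → List (Ins X) → ℂ}
variable (hF : IsGW X F) (he : Even X.dim)

/-- the derivative along the Euler field -/
theorem sum_EM (g : ℕ) (P : List (Ins X)) :
    ∑ i, EM hF he i * sr (E0 X) (cor F g ((i, 0) :: P)) =
      sr (E0 X) (fun d M => wtc X M * F g d (P ++ M)) +
        (index X : ℂ) • sr (E0 X) (cor F g ((hcls X, 0) :: P)) := by
  rw [← sum_wtc (E0 X) hF he g P]
  have h1 : ∀ k : Ix X, EM hF he k * sr (E0 X) (cor F g ((k, 0) :: P)) =
      (1 - ((hp X k : ℕ) : RM X)) * MvPowerSeries.X ((E0 X).i0 k) *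
        sr (E0 X) (cor F g ((k, 0) :: P)) +
      (if k = hcls X then ((index X : ℤ) : RM X) * sr (E0 X) (cor F g ((k, 0) :: P))
        else 0) := by
    intro k
    unfold EM
    rw [add_mul]
    split_ifs
    · rfl
    · rw [zero_mul]
  simp only [h1, Finset.sum_add_distrib]
  congr 1
  · refine Fintype.sum_equiv (Fintype.equivFin (Ix X)) _ _ fun k => ?_
    have h2 : (E0 X).e (Fintype.equivFin (Ix X) k) = (k, 0) := (E0 X).e_i0 k
    have h3 : (1 - ((hp X k : ℕ) : RM X)) = cb (nx X) ((1 : ℂ) - (hp X k : ℂ)) := by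
      unfold cb
      rw [map_sub, map_sub, map_one, map_one, map_natCast, map_natCast]
    rw [h2, h3, smul_RB]
    change _ * MvPowerSeries.X (Fintype.equivFin (Ix X) k) * _ = _
    ring
  · rw [Finset.sum_ite_eq' Finset.univ (hcls X)]
    rw [if_pos (Finset.mem_univ _), smul_RB]
    congr 1
    unfold cb
    rw [map_intCast, map_intCast]

/-- the Euler equation for correlators without descendants -/
theorem eul_cor (g : ℕ) (P : List (Ins X)) (hP : ∀ x ∈ P, x.2 = 0) :
    ∑ i, EM hF he i * sr (E0 X) (cor F g ((i, 0) :: P)) =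
      sr (E0 X) (fun d L => -((1 - (g : ℂ)) * ((X.dim : ℂ) - 3) + wtc X P) * cor F g P d L +
        (index X : ℂ) * cls X g d (P ++ L)) := by
  rw [sum_EM hF he, ← sr_smul, ← sr_add]
  refine sr_congr (E0 X) fun d L => ?_
  have hL := nodesc (X := X) L
  generalize L.map (E0 X).e = M at hL ⊢
  have hM : ∀ x ∈ P ++ M, x.2 = 0 := by
    intro x hx
    rcases List.mem_append.1 hx with h | h
    · exact hP x h
    · exact hL x h
  have h1 := wtc_grading hF g d _ hM
  have h2 := divisor_nodesc hF g d _ hM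
  rw [wtc_append] at h1
  unfold cor
  rw [List.cons_append, h2]
  linear_combination h1

/-- the grading of the three-point functions -/
theorem eul_three (a b c : Ix X) :
    ∑ i, EM hF he i * sr (E0 X) (cor F 0 [(i, 0), (a, 0), (b, 0), (c, 0)]) =
      ((hp X a : ℂ) + hp X b + hp X c - X.dim) •
        sr (E0 X) (cor F 0 [(a, 0), (b, 0), (c, 0)]) := by
  rw [eul_cor hF he 0 _ (by
    intro x hx
    simp only [List.mem_cons, List.not_mem_nil, or_false] at hx
    rcases hx with rfl | rfl | rfl <;> rfl), ← sr_smul]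
  refine sr_congr (E0 X) fun d L => ?_
  have h1 : cls X 0 d ([(a, 0), (b, 0), (c, 0)] ++ L.map (E0 X).e) = 0 := by
    unfold cls
    simp [pairTerm]
  rw [h1]
  have h2 : wtc X [(a, 0), (b, 0), (c, 0)] =
      3 - (hp X a : ℂ) - hp X b - hp X c := by
    simp [wtc]
    ring
  rw [h2]
  push_cast
  ring

/-- **the Euler equation of the structure constants** -/
theorem eul_qc (a b k : Ix X) :
    ∑ i, EM hF he i * pd i (qc F a b k) =
      ((hp X a : ℂ) + hp X b - hp X k) • qc F a b k := by
  have h0 : ∀ i : Ix X, pd i (qc F a b k) = ∑ l : Ix X, pairingInv X l k •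
      sr (E0 X) (cor F 0 [(i, 0), (a, 0), (b, 0), (l, 0)]) := by
    intro i
    unfold qc
    rw [pd_sum]
    refine Finset.sum_congr rfl fun l _ => ?_
    have hs : ∀ (b : Ix X) (c : ℂ) (f : RM X), pd b (c • f) = c • pd b f := fun b c f => by
      unfold pd
      rw [Derivation.map_smul_of_tower]
    rw [hs, pd_cor hF he]
  have h1 : ∑ i, EM hF he i * pd i (qc F a b k) = ∑ l : Ix X, pairingInv X l k •
      ∑ i, EM hF he i * sr (E0 X) (cor F 0 [(i, 0), (a, 0), (b, 0), (l, 0)]) := by
    simp only [h0, Finset.mul_sum, Finset.smul_sum]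
    rw [Finset.sum_comm]
    refine Finset.sum_congr rfl fun l _ => Finset.sum_congr rfl fun i _ => ?_
    rw [mul_smul_comm]
  rw [h1]
  unfold qc
  rw [Finset.smul_sum]
  refine Finset.sum_congr rfl fun l _ => ?_
  rw [eul_three hF he, smul_smul, smul_smul]
  congr 1
  by_cases h : pairingInv X l k = 0
  · rw [h, zero_mul, mul_zero]
  · have h2 := (H597.coh X).etai_mu l k h
    change mu X l + mu X k = 0 at h2
    unfold mu at h2
    have h3 : (hp X l : ℂ) = X.dim - hp X k := by linear_combination h2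
    rw [h3]
    ring

/-- **[M4]** from the grading equation -/
theorem c4_E (x y : AM hF he) : nab hF he x (EM hF he * y) - nab hF he x (EM hF he) * y -
    EM hF he * nab hF he x y = x * dd hF he y + y * dd hF he x - dd hF he (x * y) := by
  funext k
  refine (T_apply hF he x (EM hF he) y k).trans ?_
  have e1 : ∑ i, ∑ j, EM hF he i * y j * der hF he x (qc F i j k) =
      ∑ l, ∑ j, x l * y j * (((hp X l : ℂ) + hp X j - hp X k) • qc F l j k) := by
    change ∑ i, ∑ j, EM hF he i * y j * ∑ l, x l * pd l (qc F i j k) = _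
    have e2 : ∀ l j : Ix X, x l * y j * (((hp X l : ℂ) + hp X j - hp X k) • qc F l j k) =
        ∑ i, x l * y j * (EM hF he i * pd i (qc F l j k)) := by
      intro l j
      rw [← eul_qc hF he l j k, Finset.mul_sum]
    simp only [e2, Finset.mul_sum]
    calc ∑ i, ∑ j, ∑ l, EM hF he i * y j * (x l * pd l (qc F i j k))
        = ∑ i, ∑ l, ∑ j, EM hF he i * y j * (x l * pd l (qc F i j k)) :=
          Finset.sum_congr rfl fun i _ => Finset.sum_comm
      _ = ∑ l, ∑ i, ∑ j, EM hF he i * y j * (x l * pd l (qc F i j k)) :=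
          Finset.sum_comm
      _ = ∑ l, ∑ j, ∑ i, EM hF he i * y j * (x l * pd l (qc F i j k)) :=
          Finset.sum_congr rfl fun l _ => Finset.sum_comm
      _ = _ := by
          refine Finset.sum_congr rfl fun l _ => Finset.sum_congr rfl fun j _ =>
            Finset.sum_congr rfl fun i _ => ?_
          rw [pd_qc hF he l i j k]
          ring
  refine e1.trans ?_
  change _ = (∑ i, ∑ j, x i * (((hp X j : ℕ) : RM X) * y j) * qc F i j k) +
      (∑ i, ∑ j, y i * (((hp X j : ℕ) : RM X) * x j) * qc F i j k) -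
      ((hp X k : ℕ) : RM X) * ∑ i, ∑ j, x i * y j * qc F i j k
  have e3 : ∑ i : Ix X, ∑ j : Ix X, y i * (((hp X j : ℕ) : RM X) * x j) * qc F i j k =
      ∑ i, ∑ j, x i * (((hp X i : ℕ) : RM X) * y j) * qc F i j k := by
    rw [Finset.sum_comm]
    refine Finset.sum_congr rfl fun i _ => Finset.sum_congr rfl fun j _ => ?_
    rw [qc_comm hF he j i k]
    ring
  rw [e3, Finset.mul_sum, ← Finset.sum_add_distrib, ← Finset.sum_sub_distrib]
  refine Finset.sum_congr rfl fun i _ => ?_
  rw [Finset.mul_sum, ← Finset.sum_add_distrib, ← Finset.sum_sub_distrib]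
  refine Finset.sum_congr rfl fun j _ => ?_
  have h3 : cb (nx X) ((hp X i : ℂ) + hp X j - hp X k) =
      ((hp X i : ℕ) : RM X) + ((hp X j : ℕ) : RM X) - ((hp X k : ℕ) : RM X) := by
    unfold cb
    rw [map_sub, map_sub, map_add, map_add, map_natCast, map_natCast, map_natCast, map_natCast,
      map_natCast, map_natCast]
  rw [smul_RB, h3]
  ring

/-- **[M6]** -/
theorem der_cb (x : AM hF he) (c : ℂ) : der hF he x (cb (nx X) c) = 0 := by
  refine Finset.sum_eq_zero fun i _ => ?_
  have h : pd i (cb (nx X) c) = 0 := by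
    unfold pd cb
    rw [MvPowerSeries.pderiv_C]
  rw [h, mul_zero]

/-- **[M6]** -/
theorem G_symm (x y : AM hF he) : der hF he x (GG hF he y) - GG hF he (nab hF he x y) =
    der hF he y (GG hF he x) - GG hF he (nab hF he y x) := by
  have key : ∀ x y : AM hF he, der hF he x (GG hF he y) - GG hF he (nab hF he x y) =
      ∑ a, ∑ b, x a * y b * sr (E0 X) (cor F 1 [(a, 0), (b, 0)]) := by
    intro x y
    change ∑ a, x a * pd a (∑ b, y b * sr (E0 X) (cor F 1 [(b, 0)])) -
      ∑ b, (∑ a, x a * pd a (y b)) * sr (E0 X) (cor F 1 [(b, 0)]) = _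
    have e1 : ∑ b, (∑ a, x a * pd a (y b)) * sr (E0 X) (cor F 1 [(b, 0)]) =
        ∑ a, ∑ b, x a * pd a (y b) * sr (E0 X) (cor F 1 [(b, 0)]) := by
      rw [Finset.sum_comm]
      exact Finset.sum_congr rfl fun b _ => by rw [Finset.sum_mul]
    rw [e1, ← Finset.sum_sub_distrib]
    refine Finset.sum_congr rfl fun a _ => ?_
    rw [pd_sum, Finset.mul_sum, ← Finset.sum_sub_distrib]
    refine Finset.sum_congr rfl fun b _ => ?_
    rw [pd_mul, pd_cor hF he]
    ring
  rw [key, key, Finset.sum_comm]
  refine Finset.sum_congr rfl fun a _ => Finset.sum_congr rfl fun b _ => ?_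
  have h : sr (E0 X) (cor F 1 [(b, 0), (a, 0)]) = sr (E0 X) (cor F 1 [(a, 0), (b, 0)]) := by
    congr 1
    funext d L
    exact cor_swap hF he 1 d _ _ _ _
  rw [h]
  ring

/-- **[M6]** string equation -/
theorem G_one : GG hF he 1 = 0 := by
  change ∑ b, (if b = one X then (1 : RM X) else 0) * sr (E0 X) (cor F 1 [(b, 0)]) = 0
  rw [Finset.sum_eq_single (one X)]
  · rw [if_pos rfl, one_mul, ← sr_zero (E0 X)]
    refine sr_congr (E0 X) fun d L => ?_
    change F 1 d ((one X, 0) :: L.map (E0 X).e) = 0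
    rw [hF.string, lowerSum_zero _ _ (nodesc L)]
    simp
  · intro b _ hb
    rw [if_neg hb, zero_mul]
  · intro h
    exact absurd (Finset.mem_univ _) h

/-- **[M6]** grading and divisor equation -/
theorem G_E : GG hF he (EM hF he) =
    cb (nx X) (-(index X : ℂ) / 24 * (deg X * chernCoeff X (X.dim - 1))) := by
  change ∑ b, EM hF he b * sr (E0 X) (cor F 1 [(b, 0)]) = _
  rw [eul_cor hF he 1 [] (by simp), ← sr_const (E0 X)]
  refine sr_congr (E0 X) fun d L => ?_
  generalize L.map (E0 X).e = M
  rcases M with _ | ⟨x, M⟩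
  · by_cases hd : d = 0
    · subst hd
      simp [cls, emptyTerm, wtc]
      ring
    · simp [cls, wtc, hd]
  · simp [cls, wtc, emptyTerm]

end Vale.Agent.P269.G2.H598.C46
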