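import Vale.Agent.P269.G1I.All
import Vale.Agent.P269.G2I.BSpec1
import Vale.Agent.P269.G2I.BSpec2
import Vale.Agent.P269.G2I.H598.MTools
import Vale.Agent.P269.G2I.Model1
import Vale.Agent.P269.G2I.Model2
import Vale.Agent.P269.G2I.Model3
import Vale.Agent.P269.G2I.T.H302_M5
import Vale.Agent.P269.G2I.T.H780_Loop2
import Vale.Agent.P269.G2I.T.H780_VirBig
import Vale.Agent.P269.G2I.T.H937_Z4

/-!
# [ZH] the genus-one Virasoro constraints on the full small phase space
-/

namespace Vale.Agent.P269.G2.H598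

open Finset.HasAntidiagonal (antidiagonal)
open Vale.Agent.P269.CI
open Vale.Agent.P269.G1 (kk DD Big Frob loop_cyclic)
open Vale.Agent.P269.H597 (coh)

theorem shift_sum {M : Type*} [AddCommMonoid M] (q : ℕ) (f : ℕ → ℕ → M) :
    (∑ e ∈ antidiagonal (q + 1), if e.1 = 0 then 0 else f (e.1 - 1) e.2) =
      ∑ e ∈ antidiagonal q, f e.1 e.2 := by
  rw [Finset.Nat.sum_antidiagonal_succ]
  simp

variable {X : CompleteIntersection} {F : ℕ → ℕ → List (Ins X) → ℂ}

/-- `1/48` -/
noncomputable def kap (X : CompleteIntersection) : RM X := algebraMap ℚ (RM X) (1 / 48)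

theorem kap_spec : 48 * kap X = 1 := by
  unfold kap
  have h : (48 : RM X) = algebraMap ℚ (RM X) 48 := (map_ofNat (algebraMap ℚ (RM X)) 48).symm
  rw [h, ← map_mul]
  norm_num

theorem rat_smul (a : ℤ) (f : RM X) : ((a : ℚ) / 48) • f = (a : RM X) * kap X * f := by
  rw [Algebra.smul_def]
  congr 1
  unfold kap
  rw [div_eq_mul_one_div, map_mul, map_intCast]

/-- constants as a ring homomorphism -/
noncomputable def cbH (X : CompleteIntersection) : ℂ →+* RM X :=
  (MvPowerSeries.C (σ := Fin (nx X))).comp PowerSeries.C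

theorem cb_eq (c : ℂ) : cb (nx X) c = cbH X c := rfl

theorem cb_rat (q : ℚ) : cb (nx X) (q : ℂ) = algebraMap ℚ (RM X) q := by
  have h : (cbH X).comp (algebraMap ℚ ℂ) = algebraMap ℚ (RM X) := RingHom.ext_rat _ _
  rw [← h]
  rfl

theorem rat_smul_cb (q : ℚ) (f : RM X) : q • f = cb (nx X) (q : ℂ) * f := by
  rw [cb_rat, Algebra.smul_def]

theorem cancel_nat {q : ℕ} (hq : q ≠ 0) {a b : RM X} (h : (q : RM X) * a = (q : RM X) * b) :
    a = b := by
  have h1 : algebraMap ℚ (RM X) (1 / q) * (q : RM X) = 1 := by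
    have : (q : RM X) = algebraMap ℚ (RM X) q := (map_natCast (algebraMap ℚ (RM X)) q).symm
    rw [this, ← map_mul, one_div, inv_mul_cancel₀ (by exact_mod_cast hq), map_one]
  calc a = (algebraMap ℚ (RM X) (1 / q) * (q : RM X)) * a := by rw [h1, one_mul]
    _ = algebraMap ℚ (RM X) (1 / q) * ((q : RM X) * a) := by ring
    _ = (algebraMap ℚ (RM X) (1 / q) * (q : RM X)) * b := by rw [h]; ring
    _ = b := by rw [h1, one_mul]

theorem str_even (he : Even X.dim) (f : Ix X → ℂ) : str X f = ∑ a, f a := by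
  unfold str
  refine Finset.sum_congr rfl fun a _ => ?_
  rw [sgn_one he, one_mul]

theorem strB_mu (he : Even X.dim) :
    strB X (nx X) (muB X (nx X) * muB X (nx X)) = cb (nx X) (str X fun a => mu X a ^ 2) := by
  unfold muB
  rw [Matrix.diagonal_mul_diagonal]
  change Matrix.trace _ = _
  rw [Matrix.trace_diagonal, str_even he, cb_eq, map_sum]
  refine Finset.sum_congr rfl fun a _ => ?_
  rw [cb_eq, ← map_mul, sq]

theorem strB_one (he : Even X.dim) :
    strB X (nx X) 1 = cb (nx X) (str X fun _ => 1) := by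
  change Matrix.trace (1 : Matrix (Ix X) (Ix X) (RM X)) = _
  rw [Matrix.trace_one, str_even he, cb_eq, map_sum]
  simp

theorem loopB_zero : loopB (E0 X) F 0 = 0 := by
  unfold loopB
  rw [← sM_zero (X := X)]
  refine sM_congr fun d L => ?_
  rw [H597.loop_eq]
  simp

variable (hF : IsGW X F) (he : Even X.dim)

/-- the loop term and the constant -/
theorem loop_total (q : ℕ) : cb (nx X) (1 / 2) * loopB (E0 X) F q +
    (if q = 0 then cb (nx X) (coh X).kap else 0) =
    - (12 * kap X * ∑ e ∈ antidiagonal q, strB X (nx X) (muB X (nx X) *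
      QA.mat _ (EM hF he) ^ e.1 * muB X (nx X) * QA.mat _ (EM hF he) ^ e.2)) +
      ((q + 1 : ℕ) : RM X) * (3 * kap X * strB X (nx X) (QA.mat _ (EM hF he) ^ q)) := by
  rcases Nat.eq_zero_or_pos q with rfl | hq
  · rw [loopB_zero, if_pos rfl, mul_zero, zero_add, Finset.HasAntidiagonal.antidiagonal_zero,
      Finset.sum_singleton, H597.kap_eq]
    simp only [pow_zero, mul_one]
    rw [strB_mu he, strB_one he]
    have e1 : cb (nx X) (str X (fun _ => 1) / 16 - str X (fun a => mu X a ^ 2) / 4) =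
        (3 : ℤ) * kap X * cb (nx X) (str X fun _ => 1) -
          (12 : ℤ) * kap X * cb (nx X) (str X fun a => mu X a ^ 2) := by
      rw [← rat_smul, ← rat_smul, rat_smul_cb, rat_smul_cb, cb_eq, cb_eq, cb_eq, cb_eq, cb_eq,
        ← map_mul, ← map_mul, ← map_sub]
      congr 1
      push_cast
      ring
    rw [e1]
    push_cast
    ring
  · rw [if_neg (by omega), add_zero]
    apply cancel_nat (q := q) (by omega)
    have h3 := loop_eq hF he q
    have h4 := loop_cyclic (RM X) (strB X (nx X)) str_comm (QA.mat _ (EM hF he))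
      (muB X (nx X)) q
    rw [h4] at h3
    have c1 : cb (nx X) (1 / 2) = 24 * kap X := by
      have : (1 / 2 : ℂ) = ((1 / 2 : ℚ) : ℂ) := by push_cast; norm_num
      rw [this, cb_rat]
      have h : (1 / 2 : ℚ) = 24 * (1 / 48) := by norm_num
      rw [h, map_mul, map_ofNat]
      rfl
    have c2 : (1 / 2 : ℚ) = ((24 : ℤ) : ℚ) / 48 := by push_cast; norm_num
    have c3 : (1 / 8 : ℚ) = ((6 : ℤ) : ℚ) / 48 := by push_cast; norm_num
    rw [c2, c3, rat_smul, rat_smul] at h3
    rw [c1]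
    have hk := kap_spec (X := X)
    set K := kap X
    set s1 := ∑ e ∈ antidiagonal q, strB X (nx X) (muB X (nx X) *
      QA.mat _ (EM hF he) ^ e.1 * muB X (nx X) * QA.mat _ (EM hF he) ^ e.2)
    set s2 := strB X (nx X) (QA.mat _ (EM hF he) ^ q)
    push_cast at h3 ⊢
    linear_combination (24 * K) * h3 + (-12 * (q : RM X) * K * s1 +
      3 * (q : RM X) * ((q : RM X) + 1) * K * s2) * hk

theorem act_mat (x y : AM hF he) :
    (actB X (nx X) (QA.mat _ x) (y : Ix X → RM X) : AM hF he) = x * y := by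
  funext k
  change ∑ b, (∑ j, x j * qc F j b k) * y b = ∑ i, ∑ j, x i * y j * qc F i j k
  rw [Finset.sum_comm]
  refine Finset.sum_congr rfl fun b _ => ?_
  rw [Finset.sum_mul]
  exact Finset.sum_congr rfl fun i _ => by ring

theorem act_mu (x : AM hF he) : (actB X (nx X) (muB X (nx X)) (x : Ix X → RM X) : AM hF he) =
    dd hF he x - cb (nx X) ((X.dim : ℂ) / 2) • x := by
  funext k
  change ∑ b, Matrix.diagonal (fun b => cb (nx X) (mu X b)) k b * x b =
    ((hp X k : ℕ) : RM X) * x k - cb (nx X) ((X.dim : ℂ) / 2) * x k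
  rw [Finset.sum_eq_single k]
  · rw [Matrix.diagonal_apply_eq, ← sub_mul]
    congr 1
    unfold mu
    rw [cb_eq, cb_eq, map_sub, map_natCast]
  · intro b _ hb
    rw [Matrix.diagonal_apply_ne _ (Ne.symm hb), zero_mul]
  · simp

theorem word_apply (a b : ℕ) : (actB X (nx X) (QA.mat _ (EM hF he) ^ a *
    (algebraMap (RM X) (OB X (nx X)) (algebraMap ℚ (RM X) (3 / 2)) + muB X (nx X)) *
    QA.mat _ (EM hF he) ^ b) ((1 : AM hF he) : Ix X → RM X) : AM hF he) =
      EM hF he ^ a * (dd hF he (EM hF he ^ b)) + (algebraMap ℚ (RM X) (3 / 2) -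
        cb (nx X) ((X.dim : ℂ) / 2)) • (EM hF he ^ (a + b)) := by
  have h1 : (actB X (nx X) (QA.mat _ (EM hF he ^ b)) ((1 : AM hF he) : Ix X → RM X) : AM hF he) =
      EM hF he ^ b := by
    rw [act_mat, mul_one]
  have h2 : (actB X (nx X) (algebraMap (RM X) (OB X (nx X)) (algebraMap ℚ (RM X) (3 / 2)) +
      muB X (nx X)) ((EM hF he ^ b : AM hF he) : Ix X → RM X) : AM hF he) =
      algebraMap ℚ (RM X) (3 / 2) • EM hF he ^ b + (dd hF he (EM hF he ^ b) -
        cb (nx X) ((X.dim : ℂ) / 2) • EM hF he ^ b) := by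
    rw [map_add, AlgHom.commutes, ← act_mu]
    rfl
  have h3 : (actB X (nx X) (QA.mat _ (EM hF he) ^ a *
      (algebraMap (RM X) (OB X (nx X)) (algebraMap ℚ (RM X) (3 / 2)) + muB X (nx X)) *
      QA.mat _ (EM hF he) ^ b) ((1 : AM hF he) : Ix X → RM X) : AM hF he) =
      (actB X (nx X) (QA.mat _ (EM hF he ^ a)) (actB X (nx X)
        (algebraMap (RM X) (OB X (nx X)) (algebraMap ℚ (RM X) (3 / 2)) + muB X (nx X))
        (actB X (nx X) (QA.mat _ (EM hF he ^ b)) ((1 : AM hF he) : Ix X → RM X))) :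
          AM hF he) := by
    rw [map_pow (QA.mat _), map_pow (QA.mat _), map_mul, map_mul]
    rfl
  rw [h3, h1, h2, act_mat, mul_add, mul_sub, mul_smul_comm, mul_smul_comm, ← pow_add, sub_smul]
  abel

theorem GB_eq (x : AM hF he) : GB (E0 X) F (x : Ix X → RM X) = GG hF he x := rfl

/-- **[ZH]** the genus-one Virasoro constraint on the small phase space -/
theorem vir_small (h1 : IsGenusOneFull F) (k : ℕ) :
    sr (E0 X) (fun d L => virasoro X F (k + 1) 1 d L) = - (frob hF he).de (k + 1) := by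
  rw [vir_big (E0 X) hF he h1.trr1 k, add_assoc, loop_total hF he]
  have hz : (big (E0 X) hF he h1.trr1).zlin (k + 1) =
      - (GG hF he (EM hF he ^ (k + 1)) + (1 / 24 : ℚ) • strB X (nx X) (QA.mat _
        (∑ e ∈ antidiagonal k, (EM hF he ^ e.1 * (dd hF he (EM hF he ^ e.2)) +
          (algebraMap ℚ (RM X) (3 / 2) - cb (nx X) ((X.dim : ℂ) / 2)) •
            (EM hF he ^ (e.1 + e.2))) : AM hF he))) := by
    unfold Big.zlin
    rw [shift_sum k (fun a b => (big (E0 X) hF he h1.trr1).act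
      ((big (E0 X) hF he h1.trr1).U ^ a * (algebraMap (RM X) (OB X (nx X))
        (algebraMap ℚ (RM X) (3 / 2)) + (big (E0 X) hF he h1.trr1).mu) *
          (big (E0 X) hF he h1.trr1).U ^ b) ((big (E0 X) hF he h1.trr1).g 1))]
    change - (GB (E0 X) F (actB X (nx X) (UB (E0 X) F ^ (k + 1)) (gB (E0 X) F 1)) +
      (1 / 24 : ℚ) • strB X (nx X) (CB (E0 X) F ((∑ e ∈ antidiagonal k, actB X (nx X)
        (UB (E0 X) F ^ e.1 * (algebraMap (RM X) (OB X (nx X)) (algebraMap ℚ (RM X) (3 / 2)) +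
          muB X (nx X)) * UB (E0 X) F ^ e.2) (gB (E0 X) F 1)) +
        actB X (nx X) (UB (E0 X) F ^ (k + 1)) (gB (E0 X) F 2)))) = _
    rw [gB_two, map_zero, add_zero, UB_eq hF he, gB_one hF he]
    have e1 : (actB X (nx X) (QA.mat _ (EM hF he) ^ (k + 1))
        ((1 : AM hF he) : Ix X → RM X) : AM hF he) = EM hF he ^ (k + 1) := by
      rw [← map_pow, act_mat, mul_one]
    have e2 : GB (E0 X) F (actB X (nx X) (QA.mat _ (EM hF he) ^ (k + 1))
        ((1 : AM hF he) : Ix X → RM X)) = GG hF he (EM hF he ^ (k + 1)) := by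
      rw [← e1]
      rfl
    rw [e2]
    have e3 : (∑ e ∈ antidiagonal k, actB X (nx X) (QA.mat _ (EM hF he) ^ e.1 *
        (algebraMap (RM X) (OB X (nx X)) (algebraMap ℚ (RM X) (3 / 2)) + muB X (nx X)) *
          QA.mat _ (EM hF he) ^ e.2) ((1 : AM hF he) : Ix X → RM X)) =
        ((∑ e ∈ antidiagonal k, (EM hF he ^ e.1 * (dd hF he (EM hF he ^ e.2)) +
          (algebraMap ℚ (RM X) (3 / 2) - cb (nx X) ((X.dim : ℂ) / 2)) •
            (EM hF he ^ (e.1 + e.2))) : AM hF he) : Ix X → RM X) :=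
      Finset.sum_congr rfl fun e _ => word_apply hF he e.1 e.2
    rw [e3, CB_eq]
  rw [hz, Frob.de, Frob.om,
    shift_sum k (fun a b => -((1 / 4 : ℚ) • (frob hF he).str ((frob hF he).mu * (frob hF he).C
      ((frob hF he).E ^ a) * (frob hF he).mu * (frob hF he).C ((frob hF he).E ^ b)))
      - (1 / 24 : ℚ) • ((frob hF he).str ((frob hF he).C ((frob hF he).E ^ a *
        (frob hF he).d ((frob hF he).E ^ b))) - (frob hF he).rho • (frob hF he).str
          ((frob hF he).C ((frob hF he).E ^ a * (frob hF he).E ^ b))))]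
  change _ = - (GG hF he (EM hF he ^ (k + 1)) - ∑ e ∈ antidiagonal k,
      (-((1 / 4 : ℚ) • strB X (nx X) (muB X (nx X) * QA.mat _ (EM hF he ^ e.1) *
        muB X (nx X) * QA.mat _ (EM hF he ^ e.2))) - (1 / 24 : ℚ) • (strB X (nx X) (QA.mat _
          (EM hF he ^ e.1 * dd hF he (EM hF he ^ e.2))) - ((X.dim : ℚ) / 2) •
            strB X (nx X) (QA.mat _ (EM hF he ^ e.1 * EM hF he ^ e.2)))))
  have c2 : (1 / 24 : ℚ) = ((2 : ℤ) : ℚ) / 48 := by push_cast; norm_num
  have c3 : (1 / 4 : ℚ) = ((12 : ℤ) : ℚ) / 48 := by push_cast; norm_num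
  have c4 : algebraMap ℚ (RM X) (3 / 2) = 72 * kap X := by
    have : (3 / 2 : ℚ) = 72 * (1 / 48) := by norm_num
    rw [this, map_mul, map_ofNat]
    rfl
  have c5 : ∀ f : RM X, ((X.dim : ℚ) / 2) • f = cb (nx X) ((X.dim : ℂ) / 2) * f := by
    intro f
    rw [rat_smul_cb]
    congr 2
    push_cast
    ring
  rw [c2, c3, map_sum, map_sum]
  simp only [rat_smul, c4, c5]
  have hsplit : ∀ e ∈ antidiagonal k, strB X (nx X) (QA.mat _ (EM hF he ^ e.1 *
      dd hF he (EM hF he ^ e.2) + (72 * kap X - cb (nx X) ((X.dim : ℂ) / 2)) •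
        EM hF he ^ (e.1 + e.2))) = strB X (nx X) (QA.mat _ (EM hF he ^ e.1 *
      dd hF he (EM hF he ^ e.2))) + (72 * kap X - cb (nx X) ((X.dim : ℂ) / 2)) *
        strB X (nx X) (QA.mat _ (EM hF he) ^ k) := by
    intro e he'
    rw [map_add, map_add, map_smul, map_smul, smul_eq_mul,
      Finset.HasAntidiagonal.mem_antidiagonal.1 he', map_pow (QA.mat _)]
  rw [Finset.sum_congr rfl hsplit, Finset.sum_add_distrib, Finset.sum_const,
    Finset.Nat.card_antidiagonal, nsmul_eq_mul]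
  have hsplit2 : ∀ e ∈ antidiagonal k, (-(((12 : ℤ) : RM X) * kap X * strB X (nx X)
      (muB X (nx X) * QA.mat _ (EM hF he ^ e.1) * muB X (nx X) *
        QA.mat _ (EM hF he ^ e.2))) -
      ((2 : ℤ) : RM X) * kap X * (strB X (nx X) (QA.mat _ (EM hF he ^ e.1 *
          dd hF he (EM hF he ^ e.2))) - cb (nx X) ((X.dim : ℂ) / 2) * strB X (nx X) (QA.mat _
            (EM hF he ^ e.1 * EM hF he ^ e.2)))) =
      (-12 * kap X) * strB X (nx X) (muB X (nx X) * QA.mat _ (EM hF he) ^ e.1 *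
        muB X (nx X) * QA.mat _ (EM hF he) ^ e.2) + (-2 * kap X) * strB X (nx X) (QA.mat _
          (EM hF he ^ e.1 * dd hF he (EM hF he ^ e.2))) + 2 * kap X *
          cb (nx X) ((X.dim : ℂ) / 2) * strB X (nx X) (QA.mat _ (EM hF he) ^ k) := by
    intro e he'
    rw [← pow_add, Finset.HasAntidiagonal.mem_antidiagonal.1 he', map_pow (QA.mat _) _ e.1,
      map_pow (QA.mat _) _ e.2, map_pow (QA.mat _) _ k]
    push_cast
    ring
  rw [Finset.sum_congr rfl hsplit2, Finset.sum_add_distrib, Finset.sum_add_distrib,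
    Finset.sum_const, Finset.Nat.card_antidiagonal, nsmul_eq_mul, ← Finset.mul_sum,
    ← Finset.mul_sum]
  have hk := kap_spec (X := X)
  push_cast
  linear_combination (-3 * ((k : RM X) + 1) * kap X *
    strB X (nx X) (QA.mat _ (EM hF he) ^ k)) * hk

end Vale.Agent.P269.G2.H598
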